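import Vale.Agent.P273.H865.Zon1

/-!
# P273, row ASY1 (helper865): helper578's `LogN` along a map and helper730's `LogP` at a point
-/

noncomputable section

namespace Vale.Agent.P273.H865

open Set Filter H681 H95 H973 H730
open H578 (Pt Nr del Brd PX cX pX rad LogN Kn)
open scoped Topology ContDiff

variable {X : Type*} [NormedAddCommGroup X] [NormedSpace ℝ X]

/-- `LogN` for a base map and a coordinate -/
theorem logN_iff' {b : X → C6} {x y : X → ℂ} {p : X} (hb : DifferentiableAt ℝ b p)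
    (hx : DifferentiableAt ℝ x p) (w : X) (ζ : ℂ) (ρ : ℝ) :
    LogN b (fun q => (x q, y q)) p w ζ ρ ↔
      LogP (b p) (fderiv ℝ b p w) (x p) (fderiv ℝ x p w) ζ ρ := by
  have h : ∀ i : Fin 6, fderiv ℝ (fun q => x q - b q i) p w =
      fderiv ℝ x p w - fderiv ℝ b p w i := by
    intro i
    have h1 : HasFDerivAt (fun q => b q i)
        ((ContinuousLinearMap.proj (R := ℝ) (φ := fun _ : Fin 6 => ℂ) i).comp (fderiv ℝ b p)) p :=
      (ContinuousLinearMap.proj (R := ℝ) (φ := fun _ : Fin 6 => ℂ) i).hasFDerivAt.comp p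
        hb.hasFDerivAt
    rw [(hx.hasFDerivAt.fun_sub h1).fderiv]
    rfl
  unfold LogN LogP
  simp only [h]

/-- the derivative of the first component -/
theorem fderiv_fst' {φ : X → E} {p : X} (hφ : DifferentiableAt ℝ φ p) (w : X) :
    fderiv ℝ (fun q => (φ q).1) p w = (fderiv ℝ φ p w).1 := by
  have h : HasFDerivAt (fun q => (φ q).1)
      ((ContinuousLinearMap.fst ℝ C6 (L → ℂ)).comp (fderiv ℝ φ p)) p :=
    (ContinuousLinearMap.fst ℝ C6 (L → ℂ)).hasFDerivAt.comp p hφ.hasFDerivAt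
  rw [h.fderiv]
  rfl

/-- the derivative of a mark -/
theorem hasFDerivAt_mark {φ : X → E} {p : X} (hφ : DifferentiableAt ℝ φ p) (j : L) :
    HasFDerivAt (fun q => (φ q).2 j) ((ContinuousLinearMap.proj (R := ℝ)
      (φ := fun _ : L => ℂ) j).comp ((ContinuousLinearMap.snd ℝ C6 (L → ℂ)).comp
        (fderiv ℝ φ p))) p :=
  (ContinuousLinearMap.proj (R := ℝ) (φ := fun _ : L => ℂ) j).hasFDerivAt.comp p
    ((ContinuousLinearMap.snd ℝ C6 (L → ℂ)).hasFDerivAt.comp p hφ.hasFDerivAt)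

/-- **a mark in the chart `x`** -/
theorem logN_iff_near {S : L → Bool} {t : Bool} {φ : X → E} {σ : X → L → ℂ} {p : X}
    (hφ : DifferentiableAt ℝ φ p) {i : Fin 7} (hS : S (i, t) = false) (w : X) (ζ : ℂ) (ρ : ℝ) :
    LogN (fun q => (φ q).1) (fun q => PX S t φ σ q i) p w ζ ρ ↔
      LogP (φ p).1 (fderiv ℝ φ p w).1 ((φ p).2 (i, t)) ((fderiv ℝ φ p w).2 (i, t)) ζ ρ := by
  have e : (fun q => PX S t φ σ q i) = fun q => ((φ q).2 (i, t), (PX S t φ σ q i).2) := by
    funext q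
    refine Prod.ext ?_ rfl
    show Xp S (φ q) (i, t) = _
    unfold Xp
    rw [hS, if_neg Bool.false_ne_true]
  have hb : DifferentiableAt ℝ (fun q => (φ q).1) p := hφ.fst
  have hx := hasFDerivAt_mark hφ (i, t)
  rw [e, logN_iff' hb hx.differentiableAt, fderiv_fst' hφ, hx.fderiv]
  rfl

/-- **a mark in the chart `w = 1/x`**, not at infinity -/
theorem logN_iff_far {S : L → Bool} {t : Bool} {φ : X → E} {σ : X → L → ℂ} {p : X}
    (hφ : DifferentiableAt ℝ φ p) {i : Fin 7} (hS : S (i, t) = true)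
    (h0 : (φ p).2 (i, t) ≠ 0) (w : X) (ζ : ℂ) (ρ : ℝ) :
    LogN (fun q => (φ q).1) (fun q => PX S t φ σ q i) p w ζ ρ ↔
      LogP (φ p).1 (fderiv ℝ φ p w).1 ((φ p).2 (i, t))⁻¹
        (-(((φ p).2 (i, t) ^ 2)⁻¹ * (fderiv ℝ φ p w).2 (i, t))) ζ ρ := by
  have e : (fun q => PX S t φ σ q i) = fun q => (((φ q).2 (i, t))⁻¹, (PX S t φ σ q i).2) := by
    funext q
    refine Prod.ext ?_ rfl
    show Xp S (φ q) (i, t) = _
    unfold Xp
    rw [hS, if_pos rfl]
  have hb : DifferentiableAt ℝ (fun q => (φ q).1) p := hφ.fst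
  have hx := hasFDerivAt_mark hφ (i, t)
  have hx' : HasFDerivAt (fun q => ((φ q).2 (i, t))⁻¹)
      (-(((φ p).2 (i, t) ^ 2)⁻¹ • ((ContinuousLinearMap.proj (R := ℝ)
      (φ := fun _ : L => ℂ) (i, t)).comp ((ContinuousLinearMap.snd ℝ C6 (L → ℂ)).comp
        (fderiv ℝ φ p))))) p := by
    have h1 := (hasDerivAt_inv h0).comp_hasFDerivAt p hx
    refine h1.congr_fderiv ?_
    ext v
    simp
  rw [e, logN_iff' hb hx'.differentiableAt, fderiv_fst' hφ, hx'.fderiv]
  rfl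

theorem LogP.mono {b b' : Fin 6 → ℂ} {x x' ζ : ℂ} {ρ ρ' : ℝ} (h : LogP b b' x x' ζ ρ)
    (hρ : ρ ≤ ρ') : LogP b b' x x' ζ ρ' := by
  intro i
  refine (h i).trans ?_
  have h1 : 0 ≤ H562.qs fun i => x - b i := by
    unfold H562.qs
    positivity
  gcongr

end Vale.Agent.P273.H865

end
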