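import Vale.Agent.P273.H730.Asm0
import Vale.Agent.P273.H668.BrW

/-!
# P273, row ASY1: the marks for which the recursion is not trivial

`zones`: near the divisor where the roots `k`, `k+1` coincide, for each finite mark either the
recursion vanishes near the point or the mark has a distance from all roots and is not far
(`ActP`).
-/

noncomputable section

namespace Vale.Agent.P273.H865

open Set Filter H681 H95 H973 H730
open H578 (Pt Nr del Brd PX cX pX rad Hs)
open scoped Topology ContDiff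

/-! ### the merged configuration -/

/-- the merged configuration of six roots -/
def qm (k : Fin 5) (b : C6) : C6 := H828.pr k b ((b k.castSucc + b k.succ) / 2) 0

/-- the half difference -/
def dm (k : Fin 5) (b : C6) : ℂ := (b k.succ - b k.castSucc) / 2

theorem succ_ne (k : Fin 5) : k.succ ≠ k.castSucc := by
  intro h
  have := congrArg Fin.val h
  simp at this

theorem bd_castSucc (k : Fin 5) (q : C6) (d : ℂ) : bd k q d k.castSucc = q k.castSucc - d := by
  simp [H828.pr]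

theorem bd_succ (k : Fin 5) (q : C6) (d : ℂ) : bd k q d k.succ = q k.castSucc + d := by
  simp [H828.pr, succ_ne k]

theorem bd_other {k : Fin 5} {l : Fin 6} (h1 : l ≠ k.castSucc) (h2 : l ≠ k.succ) (q : C6) (d : ℂ) :
    bd k q d l = q l := by
  simp [H828.pr, h1, h2]

theorem qm_castSucc (k : Fin 5) (b : C6) : qm k b k.castSucc = (b k.castSucc + b k.succ) / 2 := by
  simp [qm, H828.pr]

theorem qm_succ (k : Fin 5) (b : C6) : qm k b k.succ = (b k.castSucc + b k.succ) / 2 := by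
  simp [qm, H828.pr, succ_ne k]

theorem qm_other {k : Fin 5} {l : Fin 6} (h1 : l ≠ k.castSucc) (h2 : l ≠ k.succ) (b : C6) :
    qm k b l = b l := by
  simp [qm, H828.pr, h1, h2]

theorem bd_qm (k : Fin 5) (b : C6) : bd k (qm k b) (dm k b) = b := by
  funext l
  by_cases h1 : l = k.castSucc
  · rw [h1, bd_castSucc, qm_castSucc, dm]; ring
  by_cases h2 : l = k.succ
  · rw [h2, bd_succ, qm_castSucc, dm]; ring
  rw [bd_other h1 h2, qm_other h1 h2]

theorem qm_bd {k : Fin 5} {q : C6} (hq : q k.castSucc = q k.succ) (d : ℂ) :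
    qm k (bd k q d) = q := by
  funext l
  by_cases h1 : l = k.castSucc
  · rw [h1, qm_castSucc, bd_castSucc, bd_succ]; ring
  by_cases h2 : l = k.succ
  · rw [h2, qm_succ, bd_castSucc, bd_succ, ← hq]; ring
  rw [qm_other h1 h2, bd_other h1 h2]

theorem dm_bd (k : Fin 5) (q : C6) (d : ℂ) : dm k (bd k q d) = d := by
  rw [dm, bd_castSucc, bd_succ]; ring

theorem continuous_qm (k : Fin 5) : Continuous (qm k) := by
  refine continuous_pi fun l => ?_
  by_cases h1 : l = k.castSucc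
  · subst h1
    simp only [qm_castSucc]
    fun_prop
  by_cases h2 : l = k.succ
  · subst h2
    simp only [qm_succ]
    fun_prop
  simp only [qm_other h1 h2]
  fun_prop

theorem continuous_dm (k : Fin 5) : Continuous (dm k) := by
  unfold dm
  fun_prop

theorem ev_XD {k : Fin 5} {b : C6} (h : qm k b ∈ H828.XD k) :
    ∀ᶠ b' in 𝓝 b, qm k b' ∈ H828.XD k := by
  have h2 : ∀ i j : Fin 6, ∀ᶠ b' in 𝓝 b, i < j → (i ≠ k.castSucc ∨ j ≠ k.succ) →
      (qm k b' i).re = (qm k b' j).re → (qm k b' j).im < (qm k b' i).im := by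
    intro i j
    by_cases hij : i < j
    swap
    · exact Eventually.of_forall fun _ h => absurd h hij
    by_cases hk : i ≠ k.castSucc ∨ j ≠ k.succ
    swap
    · exact Eventually.of_forall fun _ _ h => absurd h hk
    have ci : Continuous fun b' => qm k b' i := (continuous_apply i).comp (continuous_qm k)
    have cj : Continuous fun b' => qm k b' j := (continuous_apply j).comp (continuous_qm k)
    by_cases hr : (qm k b i).re = (qm k b j).re
    · have h3 := h.2 i j hij hk hr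
      have h4 := (Complex.continuous_im.comp cj).continuousAt.eventually_lt
        (Complex.continuous_im.comp ci).continuousAt h3
      filter_upwards [h4] with b' h5 _ _ _
      exact h5
    · have h4 : ∀ᶠ b' in 𝓝 b, (qm k b' i).re - (qm k b' j).re ≠ 0 :=
        ((Complex.continuous_re.comp ci).sub (Complex.continuous_re.comp cj)).continuousAt.eventually_ne
          (sub_ne_zero.2 hr)
      filter_upwards [h4] with b' h5 _ _ h6
      exact absurd (sub_eq_zero.2 h6) h5
  filter_upwards [eventually_all.2 fun i => eventually_all.2 (h2 i)] with b' h3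
  exact ⟨by rw [qm_castSucc, qm_succ], fun i j => h3 i j⟩

/-! ### active marks -/

/-- `x` has a distance from all roots and is not far -/
structure ActP (κ r R : ℝ) (k : Fin 5) (q : C6) (d x : ℂ) : Prop where
  a1 : κ * ‖d‖ ≤ ‖x - (q k.castSucc - d)‖
  a2 : κ * ‖d‖ ≤ ‖x - (q k.castSucc + d)‖
  oth : ∀ l : Fin 6, l ≠ k.castSucc → l ≠ k.succ → r ≤ ‖x - q l‖
  far : ‖x‖ ≤ R

theorem norm_sub_of_nr {ρ : ℝ} (hρ : ρ ≤ 1 / 256) {b : C6} {P Q : ℂ × ℂ} (hP : Pt b P)
    (h : Nr ρ b P Q) (i : Fin 6) : ‖P.1 - Q.1‖ ≤ ‖P.1 - b i‖ / 256 := by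
  have h1 := h.2
  have h2 := H578.Hs_le hP.off i
  have h3 := H578.Hs_nonneg b P.1
  nlinarith [norm_nonneg (P.1 - b i)]

theorem ActP.near {r R ρ : ℝ} {k : Fin 5} {q : C6} {d : ℂ} {P Q : ℂ × ℂ} (hρ : ρ ≤ 1 / 256)
    (hR : ‖bd k q d 0‖ ≤ R) (hP : Pt (bd k q d) P) (h : ActP (29 / 256) (29 / 32 * r) (35 / 32 * R) k q d P.1)
    (hN : Nr ρ (bd k q d) P Q) : ActP (1 / 10) (r / 2) (2 * R) k q d Q.1 := by
  have key : ∀ i : Fin 6, (255 / 256) * ‖P.1 - bd k q d i‖ ≤ ‖Q.1 - bd k q d i‖ := by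
    intro i
    have h1 := norm_sub_of_nr hρ hP hN i
    have h2 : P.1 - bd k q d i = (P.1 - Q.1) + (Q.1 - bd k q d i) := by ring
    have h3 := norm_add_le (P.1 - Q.1) (Q.1 - bd k q d i)
    rw [← h2] at h3
    linarith
  refine ⟨?_, ?_, fun l h1 h2 => ?_, ?_⟩
  · have h1 := key k.castSucc
    rw [bd_castSucc] at h1
    have h2 := h.a1
    have := norm_nonneg d
    linarith
  · have h1 := key k.succ
    rw [bd_succ] at h1
    have h2 := h.a2
    have := norm_nonneg d
    linarith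
  · have h3 := key l
    rw [bd_other h1 h2] at h3
    have h4 := h.oth l h1 h2
    have h5 : 0 ≤ ‖P.1 - q l‖ := norm_nonneg _
    have h6 := norm_nonneg (Q.1 - q l)
    rcases le_or_gt 0 r with h7 | h7
    · linarith
    · linarith
  · have h1 := norm_sub_of_nr hρ hP hN 0
    have h2 := h.far
    have h3 : Q.1 = P.1 - (P.1 - Q.1) := by ring
    have h4 := norm_sub_le P.1 (P.1 - Q.1)
    rw [← h3] at h4
    have h5 := norm_sub_le P.1 (bd k q d 0)
    have h6 : 0 ≤ R := (norm_nonneg _).trans hR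
    linarith

/-- every point near the divisor is one of the family -/
theorem ev_fam {k : Fin 5} {U : Set C6} (hU : IsOpen U) {q : C6} (hq : q ∈ U)
    (hX : q ∈ H828.XD k) {d : ℂ} {r : ℝ} (hd : ‖d‖ < r) (hb : bd k q d ∈ XX) :
    ∀ᶠ b in 𝓝 (bd k q d), qm k b ∈ U ∧ qm k b ∈ H828.XD k ∧ ‖dm k b‖ < r ∧ b ∈ XX := by
  have e1 : qm k (bd k q d) = q := qm_bd hX.1 d
  have h1 : ∀ᶠ b in 𝓝 (bd k q d), qm k b ∈ U :=
    (continuous_qm k).continuousAt.eventually (hU.mem_nhds (by rw [e1]; exact hq))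
  have h2 : ∀ᶠ b in 𝓝 (bd k q d), qm k b ∈ H828.XD k := ev_XD (by rw [e1]; exact hX)
  have h3 : ∀ᶠ b in 𝓝 (bd k q d), ‖dm k b‖ < r :=
    (continuous_dm k).norm.continuousAt.eventually (gt_mem_nhds
      (by show ‖dm k (bd k q d)‖ < r; rw [dm_bd]; exact hd))
  filter_upwards [h1, h2, h3, H401.isOpen_XX.mem_nhds hb] with b h1 h2 h3 h4
  exact ⟨h1, h2, h3, h4⟩

theorem norm_bd_le (k : Fin 5) (q : C6) (d : ℂ) (l : Fin 6) : ‖bd k q d l‖ ≤ ‖q‖ + ‖d‖ := by
  by_cases h1 : l = k.castSucc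
  · rw [h1, bd_castSucc]
    exact (norm_sub_le _ _).trans (by gcongr; exact norm_le_pi_norm q _)
  by_cases h2 : l = k.succ
  · rw [h2, bd_succ]
    exact (norm_add_le _ _).trans (by gcongr; exact norm_le_pi_norm q _)
  rw [bd_other h1 h2]
  have := norm_le_pi_norm q l
  have := norm_nonneg d
  linarith

/-- **either the recursion is trivial or the mark is active** -/
theorem zones (O : One) (h1 : RootO O) (h2 : PairO O) (h3 : FarO O) (k : Fin 5) {q₀ : C6}
    (hq₀ : q₀ ∈ H828.XD k) : ∃ U : Set C6, IsOpen U ∧ q₀ ∈ U ∧ ∃ r > 0, ∃ R > 0,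
    (∀ q ∈ U, ∀ d : ℂ, ‖d‖ < r → ∀ l, ‖bd k q d l‖ ≤ R) ∧
    ∀ q ∈ U, q ∈ H828.XD k → ∀ d : ℂ, ‖d‖ < r → bd k q d ∈ XX →
    ∀ (X : Type) [NormedAddCommGroup X] [NormedSpace ℝ X]
      (S : L → Bool) (t : Bool) (φ : X → E) (σ : X → L → ℂ) (p : X), Brd S φ σ p →
    (φ p).1 = bd k q d → ∀ j : Fin 7,
      (∀ᶠ z in 𝓝 p, ∀ ξ, IsCl ξ → gfun (cX S t φ σ p) (pX O ξ S t φ σ p) j z = 0) ∨
      (fin S t (φ p) j ∧ ActP (29 / 256) (29 / 32 * r) (35 / 32 * R) k q d (PX S t φ σ p j).1) := by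
  obtain ⟨U1, hU1, r1, hr1, H1⟩ := h1 k q₀ hq₀
  obtain ⟨U2, hU2, r2, hr2, H2⟩ := h2 k q₀ hq₀
  obtain ⟨U3, hU3, r3, hr3, R3, hR3, H3⟩ := h3 k q₀ hq₀
  obtain ⟨U, hUs, hUo, hUq⟩ := mem_nhds_iff.1 (inter_mem (inter_mem hU1 hU2)
    (inter_mem hU3 (Metric.ball_mem_nhds q₀ one_pos)))
  set r := min (min r1 r2) (min r3 1) with hr
  have hr0 : 0 < r := lt_min (lt_min hr1 hr2) (lt_min hr3 one_pos)
  have lr1 : r ≤ r1 := (min_le_left _ _).trans (min_le_left _ _)
  have lr2 : r ≤ r2 := (min_le_left _ _).trans (min_le_right _ _)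
  have lr3 : r ≤ r3 := (min_le_right _ _).trans (min_le_left _ _)
  have lr4 : r ≤ 1 := (min_le_right _ _).trans (min_le_right _ _)
  set R := max R3 (‖q₀‖ + 2) with hR
  have hR0 : 0 < R := lt_max_of_lt_left hR3
  have hbd : ∀ q ∈ U, ∀ d : ℂ, ‖d‖ < r → ∀ l, ‖bd k q d l‖ ≤ R := by
    intro q hq d hd l
    have e1 := norm_bd_le k q d l
    have e2 : ‖q - q₀‖ < 1 := by
      have := (hUs hq).2.2
      rwa [Metric.mem_ball, dist_eq_norm] at this
    have e3 : ‖q‖ ≤ ‖q₀‖ + ‖q - q₀‖ := by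
      have := norm_add_le q₀ (q - q₀)
      rwa [add_sub_cancel] at this
    have e4 : ‖q₀‖ + 2 ≤ R := le_max_right _ _
    linarith
  refine ⟨U, hUo, hUq, r, hr0, R, hR0, hbd, ?_⟩
  intro q hq hX d hd hb X _ _ S t φ σ p hB hφ j
  have hev := ev_fam hUo hq hX hd hb
  rw [← hφ] at hev
  by_cases hf : fin S t (φ p) j
  swap
  · exact Or.inl (Eventually.of_forall fun z ξ _ => Brd.gX_inf O ξ hf z)
  have hj : ((j : ℕ) : ℝ) ≤ 6 := by exact_mod_cast Nat.lt_succ_iff.1 j.2
  by_cases c1 : 29 / 256 * ‖d‖ ≤ ‖(PX S t φ σ p j).1 - (q k.castSucc - d)‖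
  swap
  · left
    refine Brd.gX_root hB O k.castSucc (ρ := fun b => ‖b k.succ - b k.castSucc‖ / 16) ?_ ?_ hf ?_
    · exact Continuous.continuousAt (by fun_prop)
    · filter_upwards [hev] with b ⟨a1, a2, a3, a4⟩ ξ hξ x' hx' y' hy' w
      have e1 : O.η ξ false (bd k (qm k b) (dm k b), x') y' = 0 := by
        refine H2 (qm k b) (hUs a1).1.2 a2 (dm k b) (a3.trans_le lr2) (by rwa [bd_qm]) (-1)
          (by norm_num) ξ x' y' hξ ?_ ?_
        · have e2 : qm k b k.castSucc + -1 * dm k b = b k.castSucc := by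
            rw [qm_castSucc, dm]; ring
          have e3 : ‖dm k b‖ = ‖b k.succ - b k.castSucc‖ / 2 := by
            rw [dm, norm_div]; norm_num
          rw [e2, e3]
          refine hx'.trans_le ?_
          linarith
        · rw [bd_qm]
          exact on1_false.2 hy'
      rw [bd_qm] at e1
      show O.η ξ false (b, x') y' (0, w) = 0
      rw [e1]
      rfl
    · have e1 : (φ p).1 k.castSucc = q k.castSucc - d := by rw [hφ, bd_castSucc]
      have e2 : (φ p).1 k.succ - (φ p).1 k.castSucc = 2 * d := by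
        rw [hφ, bd_castSucc, bd_succ]; ring
      show ‖(PX S t φ σ p j).1 - (φ p).1 k.castSucc‖ <
        (1 - ((j : ℕ) : ℝ) / 64) * (‖(φ p).1 k.succ - (φ p).1 k.castSucc‖ / 16)
      rw [e2, e1, norm_mul, Complex.norm_ofNat]
      refine (not_le.1 c1).trans_le ?_
      have := norm_nonneg d
      nlinarith
  by_cases c2 : 29 / 256 * ‖d‖ ≤ ‖(PX S t φ σ p j).1 - (q k.castSucc + d)‖
  swap
  · left
    refine Brd.gX_root hB O k.succ (ρ := fun b => ‖b k.succ - b k.castSucc‖ / 16) ?_ ?_ hf ?_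
    · exact Continuous.continuousAt (by fun_prop)
    · filter_upwards [hev] with b ⟨a1, a2, a3, a4⟩ ξ hξ x' hx' y' hy' w
      have e1 : O.η ξ false (bd k (qm k b) (dm k b), x') y' = 0 := by
        refine H2 (qm k b) (hUs a1).1.2 a2 (dm k b) (a3.trans_le lr2) (by rwa [bd_qm]) 1
          (by norm_num) ξ x' y' hξ ?_ ?_
        · have e2 : qm k b k.castSucc + 1 * dm k b = b k.succ := by
            rw [qm_castSucc, dm]; ring
          have e3 : ‖dm k b‖ = ‖b k.succ - b k.castSucc‖ / 2 := by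
            rw [dm, norm_div]; norm_num
          rw [e2, e3]
          refine hx'.trans_le ?_
          linarith
        · rw [bd_qm]
          exact on1_false.2 hy'
      rw [bd_qm] at e1
      show O.η ξ false (b, x') y' (0, w) = 0
      rw [e1]
      rfl
    · have e1 : (φ p).1 k.succ = q k.castSucc + d := by rw [hφ, bd_succ]
      have e2 : (φ p).1 k.succ - (φ p).1 k.castSucc = 2 * d := by
        rw [hφ, bd_castSucc, bd_succ]; ring
      show ‖(PX S t φ σ p j).1 - (φ p).1 k.succ‖ <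
        (1 - ((j : ℕ) : ℝ) / 64) * (‖(φ p).1 k.succ - (φ p).1 k.castSucc‖ / 16)
      rw [e2, e1, norm_mul, Complex.norm_ofNat]
      refine (not_le.1 c2).trans_le ?_
      have := norm_nonneg d
      nlinarith
  by_cases c3 : ∀ l : Fin 6, l ≠ k.castSucc → l ≠ k.succ → 29 / 32 * r ≤ ‖(PX S t φ σ p j).1 - q l‖
  swap
  · left
    push Not at c3
    obtain ⟨l, l1, l2, c3⟩ := c3
    refine Brd.gX_root hB O l (ρ := fun _ => r) continuousAt_const ?_ hf ?_
    · filter_upwards [hev] with b ⟨a1, a2, a3, a4⟩ ξ hξ x' hx' y' hy' w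
      have e1 : O.η ξ false (bd k (qm k b) (dm k b), x') y' = 0 := by
        refine H1 (qm k b) (hUs a1).1.1 a2 (dm k b) (a3.trans_le lr1) (by rwa [bd_qm]) l l1 l2
          ξ x' y' hξ ?_ ?_
        · rw [qm_other l1 l2]
          exact hx'.trans_le lr1
        · rw [bd_qm]
          exact on1_false.2 hy'
      rw [bd_qm] at e1
      show O.η ξ false (b, x') y' (0, w) = 0
      rw [e1]
      rfl
    · have e1 : (φ p).1 l = q l := by rw [hφ, bd_other l1 l2]
      rw [e1]
      refine c3.trans_le ?_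
      nlinarith
  by_cases c4 : ‖(PX S t φ σ p j).1‖ ≤ 35 / 32 * R
  swap
  · left
    refine Brd.gX_far hB O (R := fun _ => R) continuousAt_const ?_ hf ?_
    · filter_upwards [hev] with b ⟨a1, a2, a3, a4⟩
      have e0 : ‖b 0‖ ≤ R := by
        have := hbd (qm k b) a1 (dm k b) a3 0
        rwa [bd_qm] at this
      refine ⟨hR0.le, e0, fun ξ hξ x' hx' y' hy' w => ?_⟩
      have e1 := H3 (qm k b) (hUs a1).2.1 a2 (dm k b) (a3.trans_le lr3) (by rwa [bd_qm])
        ξ x' y' hξ ((le_max_left _ _).trans_lt hx') (by rw [bd_qm]; exact on1_false.2 hy') w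
      rw [bd_qm] at e1
      exact e1
    · refine lt_of_le_of_lt ?_ (not_le.1 c4)
      nlinarith
  exact Or.inr ⟨hf, c1, c2, c3, c4⟩

end Vale.Agent.P273.H865

end
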