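import Vale.Agent.P273.H865.LogC
import Vale.Agent.P273.H668.PairLog
import Vale.Agent.P273.H357.BrOne
import Vale.Agent.P273.H205.EtaLeg
import Vale.Agent.P273.H732.DelO1
import Vale.Agent.P273.H356.Loc1

/-!
# P273, row ASY1 (helper865): the clauses `t0`, `t2` of the bounds at one node

`near_bound`: the leg of the gauge from data of near active marks. `t02_of`: the clauses, for the
gauge of a one mark form with `OneAsy` (over helper668's `pairLog`).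
-/

noncomputable section

namespace Vale.Agent.P273.H865

open Set Filter H681 H95 H973 H730 H879 H828 H205
open H578 (Pt Nr del Brd PX cX pX rad LogN Kn)
open scoped Topology ContDiff

/-- the clauses `t0`, `t2` -/
def T02 (O : One) : Prop := ∀ k : Fin 5, ∀ q₀ ∈ H828.XD k, ∃ U ∈ 𝓝 q₀, ∃ c₀ > 0,
  ∀ c, 0 < c → c ≤ c₀ → ∃ R₁ > 0, ∀ R₀ ≥ R₁, ∃ M₀ B : ℝ, 0 < M₀ ∧ 0 < B ∧
  ∀ (R : Region1) (m : Fin (R.n + 1)) (S : L → Bool) (p : Co1 R m) (g : ℂ) (v : L → ℂ),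
    InReg k (U ∩ H828.XD k) c R₀ M₀ S p g v → ∀ (j : L) (d : Dir1 R m),
    (∀ ξ : Fin 6 → ℝ, IsCl ξ →
      |th O j ξ S (toE k c p) (R.sht (toSp c p) g v) (fderiv ℝ (toE k c) p (evec p d))| ≤
        B * ‖ξ‖ * (Real.sqrt (p.2.2.1 ()) * H879.cst p d)) ∧
      |th O j (alc k) S (toE k c p) (R.sht (toSp c p) g v) (fderiv ℝ (toE k c) p (evec p d))| ≤
        B * ((Real.sqrt (p.2.2.1 ()))⁻¹ * H879.cst p d)

/-- the size of the error times the size of the difference, all classes -/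
theorem cost0 {R : Region1} {m : Fin (R.n + 1)} {p : Co1 R m} (hy : 1 ≤ p.2.2.1 ())
    {d : Dir1 R m} {C ρ : ℝ} (hC : 0 < C) (h1 : NE d → ρ ≤ C)
    (h2 : d = .y () → ρ ≤ C * (p.2.2.1 ())⁻¹) :
    ρ ≤ C * (Real.sqrt (p.2.2.1 ()) * H879.cst p d) := by
  rcases NE_or d with h | h
  · refine (h1 h).trans ?_
    have := H828.one_le_sqrt_mul_cst hy h
    nlinarith
  · subst h
    refine (h2 rfl).trans ?_
    exact mul_le_mul_of_nonneg_left (H828.eul_T0 hy) hC.le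

/-- the class of the pair -/
theorem cost2 {R : Region1} {m : Fin (R.n + 1)} {p : Co1 R m} (hy : 1 ≤ p.2.2.1 ())
    {d : Dir1 R m} {C ρ : ℝ} (hC : 0 < C) (h1 : NE d → ρ ≤ C)
    (h2 : d = .y () → ρ ≤ C * (p.2.2.1 ())⁻¹) :
    ρ * (p.2.2.1 ())⁻¹ ≤ C * ((Real.sqrt (p.2.2.1 ()))⁻¹ * H879.cst p d) := by
  have hy0 : 0 < (p.2.2.1 ())⁻¹ := inv_pos.2 (by linarith)
  rcases NE_or d with h | h
  · have h3 := H213.inv_le_inv_sqrt_mul_cst hy d (by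
      intro k hk
      rw [hk] at h
      exact h)
    calc ρ * (p.2.2.1 ())⁻¹ ≤ C * (p.2.2.1 ())⁻¹ := mul_le_mul_of_nonneg_right (h1 h) hy0.le
      _ ≤ _ := mul_le_mul_of_nonneg_left h3 hC.le
  · subst h
    calc ρ * (p.2.2.1 ())⁻¹ ≤ C * (p.2.2.1 ())⁻¹ * (p.2.2.1 ())⁻¹ :=
          mul_le_mul_of_nonneg_right (h2 rfl) hy0.le
      _ = C * ((p.2.2.1 ())⁻¹) ^ 2 := by ring
      _ ≤ _ := mul_le_mul_of_nonneg_left (H828.eul_T2 hy) hC.le

theorem rad_le256 (k : ℕ) : rad k ≤ 1 / 256 := H578.rad_le k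

/-- **the leg of the gauge from data of near active marks**, uniform weights -/
theorem near_bound {X : Type} [NormedAddCommGroup X] [NormedSpace ℝ X] {O : One} {k : Fin 5}
    {S : L → Bool} {t : Bool} {φ : X → E} {σ : X → L → ℂ} {p : X} (hBr : Brd S φ σ p) {q : C6}
    {dd : ℂ} (hroots : (φ p).1 = bd k q dd) {r ρR : ℝ}
    (hzz : ∀ i : Fin 7, (∀ᶠ z in 𝓝 p, ∀ ξ, IsCl ξ →
        gfun (cX S t φ σ p) (pX O ξ S t φ σ p) i z = 0) ∨
      (fin S t (φ p) i ∧ ActP (29 / 256) (29 / 32 * r) (35 / 32 * ρR) k q dd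
        (PX S t φ σ p i).1))
    {ξ : Fin 6 → ℝ} (hξ : IsCl ξ) {w : X} {A W B : ℝ} (hA0 : 0 ≤ A) (hW : 0 ≤ W) (hB : 0 ≤ B)
    (hdel : ∀ (P Q : ℂ × ℂ) (ρ : ℝ), Pt (bd k q dd) P → 0 < ρ → ρ ≤ 1 / 256 →
      Nr ρ (bd k q dd) P Q → |del (etx O ξ) (bd k q dd) P Q| ≤ A)
    (hpair : ∀ i l : Fin 7, fin S t (φ p) i → fin S t (φ p) l →
      Nr (rad i) (φ p).1 (PX S t φ σ p i) (PX S t φ σ p l) →
      ActP (29 / 256) (29 / 32 * r) (35 / 32 * ρR) k q dd (PX S t φ σ p i).1 →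
      ∃ (ζ : ℂ) (ρ : ℝ), 0 ≤ ρ ∧ Kn 7 * (ρ * A) ≤ W ∧
        LogN (fun q => (φ q).1) (fun q => PX S t φ σ q i) p w ζ ρ ∧
        LogN (fun q => (φ q).1) (fun q => PX S t φ σ q l) p w ζ ρ)
    (hleg : ∀ i : Fin 7, |O.η ξ (S (i, t)) (prj (i, t) (φ p)) (σ p (i, t))
      (prj (i, t) (fderiv ℝ φ p w))| ≤ B) (j : Fin 7) :
    |th O (j, t) ξ S (φ p) (σ p) (fderiv ℝ φ p w)| ≤ (1 + H668.CW 1) * (W + 2 * B) := by
  have hw0 : 0 ≤ W + 2 * B := by positivity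
  have hK7 := H578.Kn_pos 7
  refine H668.leg_bound_w (t := t) hBr O hξ (v := w) (w := fun _ => A)
    (w' := fun _ => W + 2 * B) (K := 1) (fun _ => hA0) (fun _ => hw0) le_rfl ?_ j (B := 1) ?_
  · intro i
    rcases hzz i with h | ⟨hfi, hact⟩
    · exact Or.inl (h.mono fun z hz => hz ξ hξ)
    right
    intro l hli _ hfl hN
    have hPi : Pt (bd k q dd) (PX S t φ σ p i) := by
      have := hBr.pt_self (t := t) hfi
      rwa [hroots] at this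
    have hN' := hN
    rw [hroots] at hN'
    obtain ⟨ζ, ρ, hρ0, hρ1, hl1, hl2⟩ := hpair i l hfi hfl hN hact
    have hcX : |fderiv ℝ (cX S t φ σ p i l) p w| ≤ Kn 7 * ρ :=
      H578.abs_fderiv_chiT_le (a := fin S t (φ p)) (b := fun q => (φ q).1)
        (P := PX S t φ σ) (n := 7) hBr.contDiffAt_b
        (fun _ hm => hBr.contDiffAt_PX hm) (fun _ hm => hBr.pt_self hm) hρ0
        (fun _ _ _ => ⟨hl1, hl2⟩)
    have e3 : ∀ m : Fin 7, fin S t (φ p) m →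
        |H578.pb (etx O ξ) (fun q => (φ q).1) (fun q => PX S t φ σ q m) p w| ≤ B := by
      intro m hm
      rw [hBr.pb_eq O hξ hm]
      exact hleg m
    refine ⟨?_, ?_, ?_, ?_, ?_⟩
    · rw [hroots]
      exact hdel _ _ _ hPi (H578.rad_pos i) (rad_le256 i) hN'
    · calc |fderiv ℝ (cX S t φ σ p i l) p w| * A ≤ Kn 7 * ρ * A :=
            mul_le_mul_of_nonneg_right hcX hA0
        _ = Kn 7 * (ρ * A) := by ring
        _ ≤ W := hρ1
        _ ≤ W + 2 * B := by linarith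
    · refine (abs_sub _ _).trans ?_
      have h1 := e3 i hfi
      have h2 := e3 l hfl
      linarith
    · simp
    · simp
  · refine (hleg j).trans ?_
    linarith

/-- the quantifiers: one neighbourhood, one radius, one length -/
theorem exists_len {c r δ : ℝ} (hc : 0 < c) (hr : 0 < r) (hδ : 0 < δ) :
    ∃ M5 : ℝ, c * Real.exp (-M5 / 2) < min r δ := by
  have hrδ : 0 < min r δ := lt_min hr hδ
  refine ⟨-(2 * Real.log (min r δ / (2 * c))), ?_⟩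
  have e : -(-(2 * Real.log (min r δ / (2 * c)))) / 2 = Real.log (min r δ / (2 * c)) := by ring
  rw [e, Real.exp_log (by positivity)]
  have e2 : c * (min r δ / (2 * c)) = min r δ / 2 := by field_simp
  rw [e2]
  linarith

/-- the bounds at one point -/
theorem t02_point {O : One} {k : Fin 5} {c : ℝ} {R : Region1} {m : Fin (R.n + 1)}
    {S : L → Bool} {p : Co1 R m} {g : ℂ} {v : L → ℂ} (hc : 0 < c) (hy : 1 ≤ p.2.2.1 ())
    {σ : Co1 R m → L → ℂ} (hBr : Brd S (toE k c) σ p) (hσ : σ p = R.sht (toSp c p) g v)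
    {r ρR C B3 B4 : ℝ} (hC : 0 < C) (hB3 : 0 < B3) (hB4 : 0 < B4)
    (hz : ∀ (t : Bool) (i : Fin 7), (∀ᶠ z in 𝓝 p, ∀ ξ, IsCl ξ →
        gfun (cX S t (toE k c) σ p) (pX O ξ S t (toE k c) σ p) i z = 0) ∨
      (fin S t (toE k c p) i ∧ ActP (29 / 256) (29 / 32 * r) (35 / 32 * ρR) k (qb k p) (zh c p)
        (PX S t (toE k c) σ p i).1))
    {d : Dir1 R m}
    (hP : ∀ (t : Bool) (i j : Fin 7), fin S t (toE k c p) i → fin S t (toE k c p) j →
      Nr (rad i) (toE k c p).1 (PX S t (toE k c) σ p i) (PX S t (toE k c) σ p j) →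
      ActP (29 / 256) (29 / 32 * r) (35 / 32 * ρR) k (qb k p) (zh c p)
        (PX S t (toE k c) σ p i).1 →
      ∃ (ζ : ℂ) (ρ : ℝ), 0 ≤ ρ ∧ (NE d → ρ ≤ C) ∧ (d = .y () → ρ ≤ C * (p.2.2.1 ())⁻¹) ∧
        LogN (fun q => (toE k c q).1) (fun q => PX S t (toE k c) σ q i) p (evec p d) ζ ρ ∧
        LogN (fun q => (toE k c q).1) (fun q => PX S t (toE k c) σ q j) p (evec p d) ζ ρ)
    (hD : ∀ (P Q : ℂ × ℂ) (ρ : ℝ), Pt (bd k (qb k p) (zh c p)) P → 0 < ρ → ρ ≤ 1 / 256 →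
      Nr ρ (bd k (qb k p) (zh c p)) P Q → (∀ ξ, IsCl ξ →
        |del (etx O ξ) (bd k (qb k p) (zh c p)) P Q| ≤ B4 * ‖ξ‖) ∧
        |del (etx O (alc k)) (bd k (qb k p) (zh c p)) P Q| ≤ B4 * (p.2.2.1 ())⁻¹)
    (hL : ∀ j : L, (∀ ξ : Fin 6 → ℝ, IsCl ξ → |legO O k c S p g v ξ j (evec p d)| ≤
        B3 * ‖ξ‖ * (Real.sqrt (p.2.2.1 ()) * H879.cst p d)) ∧
      |legO O k c S p g v (alc k) j (evec p d)| ≤
        B3 * ((Real.sqrt (p.2.2.1 ()))⁻¹ * H879.cst p d)) (j : L) :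
    (∀ ξ : Fin 6 → ℝ, IsCl ξ →
      |th O j ξ S (toE k c p) (R.sht (toSp c p) g v) (fderiv ℝ (toE k c) p (evec p d))| ≤
        (1 + H668.CW 1) * (Kn 7 * C * B4 + 2 * B3) * ‖ξ‖ *
          (Real.sqrt (p.2.2.1 ()) * H879.cst p d)) ∧
      |th O j (alc k) S (toE k c p) (R.sht (toSp c p) g v) (fderiv ℝ (toE k c) p (evec p d))| ≤
        (1 + H668.CW 1) * (Kn 7 * C * B4 + 2 * B3) *
          ((Real.sqrt (p.2.2.1 ()))⁻¹ * H879.cst p d) := by
  have hK7 := H578.Kn_pos 7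
  have hcst := H401.Ch1.cst_nonneg (p := p) (by linarith) d
  have hroots : (toE k c p).1 = bd k (qb k p) (zh c p) := toE_roots k c p
  have hy0 : 0 < p.2.2.1 () := by linarith
  have hyi : 0 < (p.2.2.1 ())⁻¹ := inv_pos.2 hy0
  constructor
  · intro ξ hξ
    have h1 := near_bound hBr hroots (hz j.2) hξ (w := evec p d) (A := B4 * ‖ξ‖)
      (W := Kn 7 * C * B4 * (‖ξ‖ * (Real.sqrt (p.2.2.1 ()) * H879.cst p d)))
      (B := B3 * ‖ξ‖ * (Real.sqrt (p.2.2.1 ()) * H879.cst p d)) (by positivity) (by positivity)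
      (by positivity) (fun P Q ρ h1 h2 h3 h4 => (hD P Q ρ h1 h2 h3 h4).1 ξ hξ) ?_ ?_ j.1
    · rw [hσ] at h1
      refine h1.trans (le_of_eq ?_)
      ring
    · intro i l h1 h2 h3 h4
      obtain ⟨ζ, ρ, a0, a1, a2, a3, a4⟩ := hP j.2 i l h1 h2 h3 h4
      refine ⟨ζ, ρ, a0, ?_, a3, a4⟩
      have h3 := cost0 hy hC a1 a2
      have h4 : 0 ≤ B4 * ‖ξ‖ := by positivity
      have h5 := mul_le_mul_of_nonneg_left (mul_le_mul_of_nonneg_right h3 h4) hK7.le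
      refine h5.trans (le_of_eq ?_)
      ring
    · intro i
      rw [hσ]
      exact (hL (i, j.2)).1 ξ hξ
  · have h1 := near_bound hBr hroots (hz j.2) (isCl_alc k) (w := evec p d)
      (A := B4 * (p.2.2.1 ())⁻¹)
      (W := Kn 7 * C * B4 * ((Real.sqrt (p.2.2.1 ()))⁻¹ * H879.cst p d))
      (B := B3 * ((Real.sqrt (p.2.2.1 ()))⁻¹ * H879.cst p d)) (by positivity) (by positivity)
      (by positivity) (fun P Q ρ h1 h2 h3 h4 => (hD P Q ρ h1 h2 h3 h4).2) ?_ ?_ j.1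
    · rw [hσ] at h1
      refine h1.trans (le_of_eq ?_)
      ring
    · intro i l h1 h2 h3 h4
      obtain ⟨ζ, ρ, a0, a1, a2, a3, a4⟩ := hP j.2 i l h1 h2 h3 h4
      refine ⟨ζ, ρ, a0, ?_, a3, a4⟩
      have h3 := cost2 hy hC a1 a2
      have h5 := mul_le_mul_of_nonneg_left (mul_le_mul_of_nonneg_left h3 hB4.le) hK7.le
      refine le_trans (le_of_eq ?_) (h5.trans (le_of_eq ?_))
      · ring
      · ring
    · intro i
      rw [hσ]
      exact (hL (i, j.2)).2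

/-- **the clauses `t0`, `t2`** -/
theorem t02_of {O : One} (hO : OneAsy O) : T02 O := by
  intro k q₀ hq₀
  obtain ⟨U1, hU1o, hU1, r, hr, ρR, hρR, hbd, hz⟩ := zones O hO.root hO.pair hO.far k hq₀
  obtain ⟨U2, hU2, c2, hc2, hP⟩ := H668.pairLog k hq₀ hr hρR
  obtain ⟨U3, hU3, c3, hc3, hL⟩ := etaLegs_of hO.neck hO.core k q₀ hq₀
  obtain ⟨U4, hU4, c4, hc4, hD⟩ := H732.V1.delO_of hO.neck hO.core hO.far k q₀ hq₀
  obtain ⟨U5, hU5, δ, hδ, hmem⟩ := exists_bd_mem k hq₀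
  obtain ⟨U6, hU6, c6, hc6, hB⟩ := H357.brd_one k hq₀
  refine ⟨U1 ∩ U2 ∩ (U3 ∩ U4) ∩ (U5 ∩ U6), inter_mem (inter_mem (inter_mem (hU1o.mem_nhds hU1) hU2)
    (inter_mem hU3 hU4)) (inter_mem hU5 hU6), min (min c2 c3) (min c4 (min c6 1)),
    lt_min (lt_min hc2 hc3) (lt_min hc4 (lt_min hc6 one_pos)), fun c hc hcc => ?_⟩
  have hcc2 : c ≤ c2 := hcc.trans ((min_le_left _ _).trans (min_le_left _ _))
  have hcc3 : c ≤ c3 := hcc.trans ((min_le_left _ _).trans (min_le_right _ _))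
  have hcc4 : c ≤ c4 := hcc.trans ((min_le_right _ _).trans (min_le_left _ _))
  have hcc6 : c ≤ c6 :=
    hcc.trans ((min_le_right _ _).trans ((min_le_right _ _).trans (min_le_left _ _)))
  obtain ⟨M2, C, hM2, hC, hP⟩ := hP c hc hcc2
  obtain ⟨R3, hR3, hL⟩ := hL c hc hcc3
  obtain ⟨M4, B4, hM4, hB4, hD⟩ := hD c hc hcc4
  obtain ⟨M6, hM6, hB⟩ := hB c hc hcc6
  refine ⟨max (2 * ρR + 1) R3, lt_max_of_lt_right hR3, fun R₀ hR₀ => ?_⟩
  have hR₀2 : 2 * ρR < R₀ := by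
    have := (le_max_left (2 * ρR + 1) R3).trans hR₀
    linarith
  obtain ⟨M3, B3, hM3, hB3, hL⟩ := hL R₀ ((le_max_right _ _).trans hR₀)
  obtain ⟨M5, hM5⟩ := exists_len hc hr hδ
  obtain ⟨M, lM2, lM3, lM4, lM5, lM6, lM1⟩ : ∃ M : ℝ, M2 ≤ M ∧ M3 ≤ M ∧ M4 ≤ M ∧ M5 ≤ M ∧
      M6 ≤ M ∧ 1 ≤ M := ⟨max (max M2 M3) (max (max M4 M5) (max M6 1)),
    (le_max_left _ _).trans (le_max_left _ _), (le_max_right _ _).trans (le_max_left _ _),
    (le_max_left _ _).trans ((le_max_left _ _).trans (le_max_right _ _)),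
    (le_max_right _ _).trans ((le_max_left _ _).trans (le_max_right _ _)),
    (le_max_left _ _).trans ((le_max_right _ _).trans (le_max_right _ _)),
    (le_max_right _ _).trans ((le_max_right _ _).trans (le_max_right _ _))⟩
  have hK7 := H578.Kn_pos 7
  have hCW := H668.CW_nonneg (K := 1) le_rfl
  refine ⟨M, (1 + H668.CW 1) * (Kn 7 * C * B4 + 2 * B3), by linarith, by positivity, ?_⟩
  intro R m S p g v hp j d
  have hy : 1 ≤ p.2.2.1 () := lM1.trans hp.y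
  have hMM : c * Real.exp (-M / 2) < min r δ := by
    refine lt_of_le_of_lt ?_ hM5
    gcongr
  obtain ⟨hBr, hσ⟩ := hB M lM6 R₀ R m S p g v (H356.inReg_mono
    (K' := U6 ∩ H828.XD k) (fun q hq => ⟨hq.1.2.2, hq.2⟩) le_rfl hp)
  have hP' := hP R₀ hR₀2 R m S p g v (H356.inReg_mono (K' := U2 ∩ H828.XD k)
    (fun q hq => ⟨hq.1.1.1.2, hq.2⟩) lM2 hp) hBr.mem
  have hL' := hL R m S p g v (H356.inReg_mono (K' := U3 ∩ H828.XD k)
    (fun q hq => ⟨hq.1.1.2.1, hq.2⟩) lM3 hp)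
  have hA : Adm k (U1 ∩ U2 ∩ (U3 ∩ U4) ∩ (U5 ∩ U6)) c M (qb k p) (zh c p) :=
    adm_of hc (fun q hq => hmem q hq.2.1) (hMM.trans_le (min_le_right _ _)) le_rfl
      (fun q hq => hq) hp
  have hA4 : Adm k U4 c M4 (qb k p) (zh c p) :=
    { hA with qU := hA.qU.1.2.2, len := lM4.trans hA.len }
  have hyl : yl c (zh c p) = p.2.2.1 () := H828.yl_zh hc p
  have hroots : (toE k c p).1 = bd k (qb k p) (zh c p) := toE_roots k c p
  have hzr : ‖zh c p‖ < r := by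
    rw [H828.norm_zh hc]
    refine lt_of_le_of_lt ?_ (hMM.trans_le (min_le_left _ _))
    have := hp.y
    gcongr
  have hzz := fun t => hz (qb k p) hA.qU.1.1.1 hA.qX (zh c p) hzr hA.mem (Co1 R m) S t (toE k c)
    _ p hBr hroots
  have hP'' := hP' fun l => hbd _ hA.qU.1.1.1 _ hzr l
  have hdiff : DifferentiableAt ℝ (toE k c : Co1 R m → E) p :=
    hBr.smφ.differentiableAt (by simp)
  refine t02_point hc hy hBr hσ hC hB3 hB4 hzz ?_
    (fun P Q ρ h1 h2 h3 h4 => by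
      refine ⟨fun ξ hξ => (hD _ _ hA4 P Q ρ h1 h2 h3 h4 ξ hξ).1, ?_⟩
      have := (hD _ _ hA4 P Q ρ h1 h2 h3 h4 (alc k) (isCl_alc k)).2.2
      rwa [hyl] at this)
    (fun j => ⟨fun ξ hξ => ((hL' j d).1 ξ hξ).1, (hL' j d).2⟩) j
  intro t i l h1 h2 h3 h4
  have e1 : PX S t (toE k c) (H357.sg1 R S c p g v) p =
      PP S t (toE k c p) (R.sht (toSp c p) g v) := by
    unfold PX
    rw [hσ]
  rw [e1] at h3 h4
  obtain ⟨s1, s2, hPD⟩ := hP'' t i l h1 h2 h3 h4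
  obtain ⟨⟨a1, a2⟩, a3, -⟩ := hPD d
  have hyi : 0 < (p.2.2.1 ())⁻¹ := inv_pos.2 (by linarith)
  rcases NE_or d with h | h
  · refine ⟨0, C, hC.le, fun _ => le_rfl, fun h' => ?_, (logN_iff_near hdiff s1 _ _ _).2 a1,
      (logN_iff_near hdiff s2 _ _ _).2 a2⟩
    rw [h'] at h
    exact absurd h (by simp [NE])
  · obtain ⟨ζ, b1, b2⟩ := a3 (by rw [h]; simp [NE])
    refine ⟨ζ, C * (p.2.2.1 ())⁻¹, by positivity, fun h' => ?_, fun _ => le_rfl,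
      (logN_iff_near hdiff s1 _ _ _).2 b1, (logN_iff_near hdiff s2 _ _ _).2 b2⟩
    rw [h] at h'
    exact absurd h' (by simp [NE])

end Vale.Agent.P273.H865

end
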