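import Vale.Agent.P273.H578.Bridge
import Vale.Agent.P273.H422.GenAdm
import Vale.Agent.P273.H375.DenR
import Vale.Agent.P273.H738.Inst
import Vale.Agent.P273.H778.T2Defs

/-!
# P273, T2 (A): the bridge data at the theta charts

`brd_theta`: at an admissible point of helper562's chart the maps `posE`, `shE` satisfy
helper578's `Brd`.
-/

noncomputable section

namespace Vale.Agent.P273.H865

open Set Filter H681 H95 H732 H562 H975
open scoped Topology ContDiff

/-! ### the roots -/

theorem th_mem {d : Fin 3 → ℂ} (hn : ∀ k, ‖d k‖ < 1) (h : ∀ k, (d k).re = 0 → (d k).im < 0) :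
    H828.th d ∈ XX := by
  have hr : ∀ k, |(d k).re| < 1 := fun k => (Complex.abs_re_le_norm _).trans_lt (hn k)
  have h0 := abs_lt.1 (hr 0)
  have h1 := abs_lt.1 (hr 1)
  have h2 := abs_lt.1 (hr 2)
  intro i j hij he
  have c1 : ((3 / 2 : ℂ)).re = 3 / 2 := by norm_num
  have c2 : ((7 / 2 : ℂ)).re = 7 / 2 := by norm_num
  have c3 : ((11 / 2 : ℂ)).re = 11 / 2 := by norm_num
  have d1 : ((3 / 2 : ℂ)).im = 0 := by norm_num
  have d2 : ((7 / 2 : ℂ)).im = 0 := by norm_num
  have d3 : ((11 / 2 : ℂ)).im = 0 := by norm_num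
  fin_cases i <;> fin_cases j <;>
    first
    | exact absurd hij (by decide)
    | (exfalso
       simp only [H828.th, Fin.reduceFinMk, Matrix.cons_val, Complex.sub_re, Complex.add_re,
         c1, c2, c3] at he
       linarith)
    | skip
  · simp only [H828.th, Fin.reduceFinMk, Matrix.cons_val, Complex.sub_re, Complex.add_re,
      Complex.sub_im, Complex.add_im, d1] at he ⊢
    have := h 0 (by linarith)
    linarith
  · simp only [H828.th, Fin.reduceFinMk, Matrix.cons_val, Complex.sub_re, Complex.add_re,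
      Complex.sub_im, Complex.add_im, d2] at he ⊢
    have := h 1 (by linarith)
    linarith
  · simp only [H828.th, Fin.reduceFinMk, Matrix.cons_val, Complex.sub_re, Complex.add_re,
      Complex.sub_im, Complex.add_im, d3] at he ⊢
    have := h 2 (by linarith)
    linarith

/-- half differences with angle in `[-7/2, 1/2]` -/
theorem exp_ok {r y α : ℝ} (hr : 0 < r) (h1 : -7 ≤ α) (h2 : α ≤ 1)
    (h : ((r : ℂ) * Complex.exp ((-(y : ℂ) + (α : ℂ) * Complex.I) / 2)).re = 0) :
    ((r : ℂ) * Complex.exp ((-(y : ℂ) + (α : ℂ) * Complex.I) / 2)).im < 0 := by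
  have e : (-(y : ℂ) + (α : ℂ) * Complex.I) / 2 =
      ((-y / 2 : ℝ) : ℂ) + ((α / 2 : ℝ) : ℂ) * Complex.I := by
    push_cast; ring
  rw [e] at h ⊢
  rw [Complex.re_ofReal_mul, Complex.exp_re] at h
  rw [Complex.im_ofReal_mul, Complex.exp_im]
  simp only [Complex.add_re, Complex.add_im, Complex.ofReal_re, Complex.ofReal_im,
    Complex.mul_re, Complex.mul_im, Complex.I_re, Complex.I_im, mul_zero, mul_one, sub_zero,
    zero_add, add_zero] at h ⊢
  have h3 : Real.cos (α / 2) = 0 := by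
    rcases mul_eq_zero.1 h with h | h
    · exact absurd h hr.ne'
    · rcases mul_eq_zero.1 h with h | h
      · exact absurd h (Real.exp_pos _).ne'
      · exact h
  have h4 : Real.sin (α / 2) < 0 := by
    by_contra hs
    push Not at hs
    have h5 : Real.sin (α / 2) = 1 := by
      have := Real.sin_sq_add_cos_sq (α / 2)
      rw [h3] at this
      nlinarith
    obtain ⟨k, hk⟩ := Real.sin_eq_one_iff.1 h5
    have hp := Real.pi_gt_three
    have hp2 := Real.pi_lt_d2
    have k1 : ((k : ℤ) : ℝ) < 0 := by nlinarith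
    have k2 : (-1 : ℝ) < (k : ℤ) := by nlinarith
    have k3 : k < 0 := by exact_mod_cast k1
    have k4 : -1 < k := by exact_mod_cast k2
    omega
  have := mul_pos hr (Real.exp_pos (-y / 2))
  nlinarith

/-- **the roots of a theta configuration lie in `XX`** -/
theorem rootsL_mem {y α : Fin 3 → ℝ} (hy : ∀ k, 0 ≤ y k) (hα : ∀ k, -7 ≤ α k ∧ α k ≤ 1) :
    rootsL y α ∈ XX := by
  have hc : (1 / 16 : ℂ) = ((1 / 16 : ℝ) : ℂ) := by push_cast; rfl
  refine th_mem (fun k => ?_) (fun k hk => ?_)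
  · rw [norm_mul, Complex.norm_exp]
    have h1 : ((-(y k : ℂ) + (α k : ℂ) * Complex.I) / 2).re ≤ 0 := by
      have e : (-(y k : ℂ) + (α k : ℂ) * Complex.I) / 2 =
          ((-y k / 2 : ℝ) : ℂ) + ((α k / 2 : ℝ) : ℂ) * Complex.I := by
        push_cast; ring
      rw [e]
      simp only [Complex.add_re, Complex.ofReal_re, Complex.mul_re, Complex.I_re, Complex.I_im,
        Complex.ofReal_im, mul_zero, mul_one, sub_zero, add_zero]
      linarith [hy k]
    have h2 := Real.exp_le_one_iff.2 h1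
    have h3 : ‖(1 / 16 : ℂ)‖ = 1 / 16 := by norm_num
    rw [h3]
    linarith
  · rw [hc] at hk ⊢
    exact exp_ok (by norm_num) (hα k).1 (hα k).2 hk

section Chart

variable (R : H95.Region) (m : ∀ k, Fin (R.n k + 1))

/-- helper562's roots are helper738's -/
theorem rootsL_eq (q : Co R m) : rootsL q.2.2.1 q.2.2.2.1 = H738.rt6 R m q := by
  have h : ∀ k, H738.hd (1 / 16) (H738.le3 R m) k q =
      1 / 16 * Complex.exp ((-(q.2.2.1 k : ℂ) + (q.2.2.2.1 k : ℂ) * Complex.I) / 2) := by
    intro k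
    rw [H738.hd, H738.le3_eq]
  funext i
  unfold rootsL H738.rt6 H738.rts
  rw [h (H738.kp i)]
  fin_cases i <;> simp [H828.th, H738.kp, H738.sg6, ctr] <;> ring

theorem rts_posE (q : Co R m) : H95.rts (posE R m q).1 = thA (R.eps (emb R m q)) := by
  show H95.rts (rootsL q.2.2.1 q.2.2.2.1) = _
  rw [rootsL_eq]
  exact H738.rts_rt6 R m q

theorem contDiff_emb : ContDiff ℝ ∞ (emb R m) :=
  ((scl R).contDiff).comp ((W R m).contDiff_psi.of_le le_top)

theorem contDiff_rootsL : ContDiff ℝ ∞ (fun q : Co R m => rootsL q.2.2.1 q.2.2.2.1) := by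
  rw [contDiff_pi]
  intro i
  have h : (fun q : Co R m => rootsL q.2.2.1 q.2.2.2.1 i) = fun q => H738.rt6 R m q i :=
    funext fun q => congrFun (rootsL_eq R m q) i
  rw [h]
  unfold H738.rt6 H738.rts H738.hd
  refine contDiff_const.add (contDiff_const.mul (contDiff_const.mul ?_))
  exact (((H738.le3 R m (H738.kp i)).contDiff).div_const 2).cexp

theorem contDiffAt_pos (q : Co R m) (j : L) :
    ContDiffAt ℝ ∞ (fun q => R.pos (emb R m q) j) q := by
  have h1 := ((H375.an_pos R j (emb R m q)).contDiffAt (n := ∞)).restrict_scalars ℝ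
  exact ContDiffAt.comp q h1 (contDiff_emb R m).contDiffAt

theorem contDiffAt_posE (q : Co R m) : ContDiffAt ℝ ∞ (posE R m) q :=
  (contDiff_rootsL R m).contDiffAt.prodMk (contDiffAt_pi.2 fun j => contDiffAt_pos R m q j)

variable {R m}

theorem emb_mem_U0 {S : L → Bool} {N₀ : ℝ} {p : Co R m} (hN : 5 ≤ N₀) (h : Adm R m S N₀ p) :
    emb R m p ∈ U0 R S := by
  have hy1 : Real.exp (-5) < 1 / 64 := by
    rw [Real.exp_neg, one_div]
    refine inv_strictAnti₀ (by norm_num) ?_
    have h := Real.exp_one_gt_d9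
    calc (64 : ℝ) < 2.7 ^ 5 := by norm_num
      _ ≤ Real.exp 1 ^ 5 := by gcongr; linarith
      _ = Real.exp 5 := by rw [← Real.exp_nat_mul]; norm_num
  refine scl_mem_U0 (y0 := 5) (K0 := zone R S (1 / 64) 11) (by linarith)
    (zoneOK le_rfl (by linarith) (by linarith) (by norm_num)) ?_
  exact psi_mem_CR m h.1 (by norm_num) (fun k => hN.trans (h.2.1 k)) h.2.2.2.1

theorem emb_mem_D1 {S : L → Bool} {N₀ : ℝ} {p : Co R m} (hN : 5 ≤ N₀) (h : Adm R m S N₀ p) :
    emb R m p ∈ H375.D1 R S := emb_mem_U0 hN h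

/-- **the bridge data at the theta charts** -/
theorem brd_theta {S : L → Bool} (hS : FarOk R S) {N₀ : ℝ} (hN : 5 ≤ N₀) {p : Co R m}
    (h : Adm R m S N₀ p) : H578.Brd S (posE R m) (shE R m S) p := by
  have hD := emb_mem_D1 hN h
  have hsm : ∀ j, ContDiffAt ℝ ∞ (fun q => shE R m S q j) p := fun j => by
    have h1 := ((H375.an_sht R j hD).contDiffAt (n := ∞)).restrict_scalars ℝ
    exact ContDiffAt.comp p h1 (contDiff_emb R m).contDiffAt
  refine ⟨contDiffAt_posE R m p, hsm, ?_, ?_⟩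
  · exact rootsL_mem (fun k => by have := h.2.1 k; linarith) h.2.2.1
  · have h2 : ∀ᶠ q in 𝓝 p, emb R m q ∈ H375.D1 R S :=
      (contDiff_emb R m).continuous.continuousAt.eventually ((H375.isOpen_D1 R S).mem_nhds hD)
    have h3 : ∀ᶠ q in 𝓝 p, ∀ j, shE R m S q j ≠ 0 :=
      eventually_all.2 fun j => (hsm j).continuousAt.eventually_ne (h.2.2.2.2 j)
    filter_upwards [h2, h3] with q h4 h5 j
    refine ⟨?_, h5 j⟩
    rw [rts_posE]
    exact H375.sht_sq R hS j h4

/-- helper778's input (A0) -/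
theorem inA0 : H778.InA0 := ⟨5, by norm_num, fun _ _ _ hS _ h => brd_theta hS le_rfl h⟩

end Chart

end Vale.Agent.P273.H865

end
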