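import Vale.Agent.P273.H865.AsyT
import Vale.Agent.P273.H730.Glue

/-!
# P273, row ASY1 (helper865): the clauses `t0`, `t2` in helper730's form
-/

noncomputable section

namespace Vale.Agent.P273.H865

open Set Filter H681 H95 H973 H730 H879 H356
open scoped Topology ContDiff

theorem prc_eq_alc (k : Fin 5) : prc k = alc k := by
  funext j
  unfold prc alc
  rfl

theorem clT0_of {O : One} (hT : T02 O) : ∀ k, ∀ q₀ ∈ H828.XD k, NearQ k q₀ (ClT0 O k) := by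
  intro k q₀ hq₀
  obtain ⟨U, hU, c₀, hc₀, h⟩ := hT k q₀ hq₀
  refine ⟨U, hU, c₀, hc₀, fun c hc hcc => ?_⟩
  obtain ⟨R₁, hR₁, h⟩ := h c hc hcc
  refine ⟨R₁, hR₁, fun R₀ hR₀ => ?_⟩
  obtain ⟨M₀, B, hM₀, hB, h⟩ := h R₀ hR₀
  exact ⟨M₀, B, 1, hM₀, hB, one_pos, fun R m S p g v hp j ξ d hξ =>
    (h R m S p g v hp j d).1 ξ hξ⟩

theorem clT2_of {O : One} (hT : T02 O) : ∀ k, ∀ q₀ ∈ H828.XD k, NearQ k q₀ (ClT2 O k) := by
  intro k q₀ hq₀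
  obtain ⟨U, hU, c₀, hc₀, h⟩ := hT k q₀ hq₀
  refine ⟨U, hU, c₀, hc₀, fun c hc hcc => ?_⟩
  obtain ⟨R₁, hR₁, h⟩ := h c hc hcc
  refine ⟨R₁, hR₁, fun R₀ hR₀ => ?_⟩
  obtain ⟨M₀, B, hM₀, hB, h⟩ := h R₀ hR₀
  refine ⟨M₀, B, 1, hM₀, hB, one_pos, fun R m S p g v hp j d => ?_⟩
  rw [prc_eq_alc]
  exact (h R m S p g v hp j d).2

/-- **the clause `t0`** -/
theorem clT0 (O : One) (h : OneAsy O) :
    ∀ k, ∀ q₀ ∈ H828.XD k, NearQ k q₀ (ClT0 O k) := clT0_of (t02_of h)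

/-- **the clause `t2`** -/
theorem clT2 (O : One) (h : OneAsy O) :
    ∀ k, ∀ q₀ ∈ H828.XD k, NearQ k q₀ (ClT2 O k) := clT2_of (t02_of h)

end Vale.Agent.P273.H865

end
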