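import Vale.Agent.P273.H865.ClT

/-!
# P273, row ASY1 (helper865): the clause `t1` (classes with equal numbers on the pair)
-/

noncomputable section

namespace Vale.Agent.P273.H865

open Set Filter H681 H95 H973 H730 H879 H828 H205
open H578 (Pt Nr del Brd PX cX pX rad LogN Kn)
open scoped Topology ContDiff

theorem wt1_nonneg {k : Fin 5} {c : ℝ} {q : C6} {d : ℂ} (hy : 0 < yl c d) (x : ℂ) :
    0 ≤ wt1 k c q d x := by
  unfold wt1
  have := inv_pos.2 hy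
  positivity

theorem wt1_eq (k : Fin 5) (c : ℝ) (q : C6) (d x : ℂ) : wt1 k c q d x =
    (yl c d)⁻¹ + (‖x - bd k q d k.succ‖ + ‖x - bd k q d k.castSucc‖) := by
  rw [bd_castSucc, bd_succ]
  unfold wt1
  have e1 : x - q k.castSucc - d = x - (q k.castSucc + d) := by ring
  have e2 : x - q k.castSucc + d = x - (q k.castSucc - d) := by ring
  rw [e1, e2]

/-- near marks have comparable weights -/
theorem wt1_near {k : Fin 5} {c : ℝ} {q : C6} {d : ℂ} (hy : 0 < yl c d) {ρ : ℝ}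
    (hρ : ρ ≤ 1 / 256) {P Q : ℂ × ℂ} (hP : Pt (bd k q d) P) (hN : Nr ρ (bd k q d) P Q) :
    wt1 k c q d Q.1 ≤ 2 * wt1 k c q d P.1 := by
  have key : ∀ i : Fin 6, ‖Q.1 - bd k q d i‖ ≤ 2 * ‖P.1 - bd k q d i‖ := by
    intro i
    have h1 := norm_sub_of_nr hρ hP hN i
    have h2 : Q.1 - bd k q d i = (P.1 - bd k q d i) - (P.1 - Q.1) := by ring
    have h3 := norm_sub_le (P.1 - bd k q d i) (P.1 - Q.1)
    rw [← h2] at h3
    have h4 := norm_nonneg (P.1 - bd k q d i)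
    linarith
  have h1 := key k.succ
  have h2 := key k.castSucc
  have h3 := inv_pos.2 hy
  rw [wt1_eq, wt1_eq]
  linarith

/-- **the leg of the gauge from data of near active marks**, weights of the marks -/
theorem near_bound_w {X : Type} [NormedAddCommGroup X] [NormedSpace ℝ X] {O : One} {k : Fin 5}
    {S : L → Bool} {t : Bool} {φ : X → E} {σ : X → L → ℂ} {p : X} (hBr : Brd S φ σ p) {q : C6}
    {dd : ℂ} (hroots : (φ p).1 = bd k q dd) {r ρR : ℝ}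
    (hzz : ∀ i : Fin 7, (∀ᶠ z in 𝓝 p, ∀ ξ, IsCl ξ →
        gfun (cX S t φ σ p) (pX O ξ S t φ σ p) i z = 0) ∨
      (fin S t (φ p) i ∧ ActP (29 / 256) (29 / 32 * r) (35 / 32 * ρR) k q dd
        (PX S t φ σ p i).1))
    {ξ : Fin 6 → ℝ} (hξ : IsCl ξ) {w : X} {wt : ℂ → ℝ} {A W B K : ℝ} (hwt : ∀ x, 0 ≤ wt x)
    (hA0 : 0 ≤ A) (hW : 0 ≤ W) (hB : 0 ≤ B) (hK : 1 ≤ K)
    (hcomp : ∀ (P Q : ℂ × ℂ) (ρ : ℝ), Pt (bd k q dd) P → ρ ≤ 1 / 256 →
      Nr ρ (bd k q dd) P Q → wt Q.1 ≤ K * wt P.1)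
    (hdel : ∀ (P Q : ℂ × ℂ) (ρ : ℝ), Pt (bd k q dd) P → 0 < ρ → ρ ≤ 1 / 256 →
      Nr ρ (bd k q dd) P Q → |del (etx O ξ) (bd k q dd) P Q| ≤ A * wt P.1)
    (hpair : ∀ i l : Fin 7, fin S t (φ p) i → fin S t (φ p) l →
      Nr (rad i) (φ p).1 (PX S t φ σ p i) (PX S t φ σ p l) →
      ActP (29 / 256) (29 / 32 * r) (35 / 32 * ρR) k q dd (PX S t φ σ p i).1 →
      ∃ (ζ : ℂ) (ρ : ℝ), 0 ≤ ρ ∧ Kn 7 * (ρ * (A * wt (PX S t φ σ p i).1)) ≤ W ∧
        LogN (fun q => (φ q).1) (fun q => PX S t φ σ q i) p w ζ ρ ∧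
        LogN (fun q => (φ q).1) (fun q => PX S t φ σ q l) p w ζ ρ)
    (hleg : ∀ i : Fin 7, |O.η ξ (S (i, t)) (prj (i, t) (φ p)) (σ p (i, t))
      (prj (i, t) (fderiv ℝ φ p w))| ≤ B) (j : Fin 7) :
    |th O (j, t) ξ S (φ p) (σ p) (fderiv ℝ φ p w)| ≤ (1 + H668.CW K) * (W + 2 * B) := by
  have hw0 : 0 ≤ W + 2 * B := by positivity
  have hK7 := H578.Kn_pos 7
  refine H668.leg_bound_w (t := t) hBr O hξ (v := w) (w := fun i => A * wt (PX S t φ σ p i).1)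
    (w' := fun _ => W + 2 * B) (K := K) (fun i => mul_nonneg hA0 (hwt _)) (fun _ => hw0) hK ?_ j
    (B := 1) ?_
  · intro i
    rcases hzz i with h | ⟨hfi, hact⟩
    · exact Or.inl (h.mono fun z hz => hz ξ hξ)
    right
    intro l hli _ hfl hN
    have hPi : Pt (bd k q dd) (PX S t φ σ p i) := by
      have := hBr.pt_self (t := t) hfi
      rwa [hroots] at this
    have hN' := hN
    rw [hroots] at hN'
    obtain ⟨ζ, ρ, hρ0, hρ1, hl1, hl2⟩ := hpair i l hfi hfl hN hact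
    have hcX : |fderiv ℝ (cX S t φ σ p i l) p w| ≤ Kn 7 * ρ :=
      H578.abs_fderiv_chiT_le (a := fin S t (φ p)) (b := fun q => (φ q).1)
        (P := PX S t φ σ) (n := 7) hBr.contDiffAt_b
        (fun _ hm => hBr.contDiffAt_PX hm) (fun _ hm => hBr.pt_self hm) hρ0
        (fun _ _ _ => ⟨hl1, hl2⟩)
    have e3 : ∀ m : Fin 7, fin S t (φ p) m →
        |H578.pb (etx O ξ) (fun q => (φ q).1) (fun q => PX S t φ σ q m) p w| ≤ B := by
      intro m hm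
      rw [hBr.pb_eq O hξ hm]
      exact hleg m
    have hAw : 0 ≤ A * wt (PX S t φ σ p i).1 := mul_nonneg hA0 (hwt _)
    refine ⟨?_, ?_, ?_, ?_, ?_⟩
    · rw [hroots]
      exact hdel _ _ _ hPi (H578.rad_pos i) (rad_le256 i) hN'
    · calc |fderiv ℝ (cX S t φ σ p i l) p w| * (A * wt (PX S t φ σ p i).1) ≤
            Kn 7 * ρ * (A * wt (PX S t φ σ p i).1) := mul_le_mul_of_nonneg_right hcX hAw
        _ = Kn 7 * (ρ * (A * wt (PX S t φ σ p i).1)) := by ring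
        _ ≤ W := hρ1
        _ ≤ W + 2 * B := by linarith
    · refine (abs_sub _ _).trans ?_
      have h1 := e3 i hfi
      have h2 := e3 l hfl
      linarith
    · have h1 := mul_le_mul_of_nonneg_left (hcomp _ _ _ hPi (rad_le256 i) hN') hA0
      refine h1.trans (le_of_eq ?_)
      ring
    · exact le_mul_of_one_le_left hw0 hK
  · refine (hleg j).trans ?_
    linarith

/-- the clause `t1` -/
def T1 (O : One) : Prop := ∀ k : Fin 5, ∀ q₀ ∈ H828.XD k, ∃ U ∈ 𝓝 q₀, ∃ c₀ > 0,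
  ∀ c, 0 < c → c ≤ c₀ → ∃ R₁ > 0, ∀ R₀ ≥ R₁, ∃ M₀ B : ℝ, 0 < M₀ ∧ 0 < B ∧
  ∀ (R : Region1) (m : Fin (R.n + 1)) (S : L → Bool) (p : Co1 R m) (g : ℂ) (v : L → ℂ),
    InReg k (U ∩ H828.XD k) c R₀ M₀ S p g v → ∀ (j : L) (d : Dir1 R m) (ξ : Fin 6 → ℝ),
    IsCl ξ → ξ k.castSucc = ξ k.succ →
      |th O j ξ S (toE k c p) (R.sht (toSp c p) g v) (fderiv ℝ (toE k c) p (evec p d))| ≤
        B * ‖ξ‖ * H879.cst p d

/-- **the clause `t1`** -/
theorem t1_of {O : One} (hO : OneAsy O) : T1 O := by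
  intro k q₀ hq₀
  obtain ⟨U1, hU1o, hU1, r, hr, ρR, hρR, hbd, hz⟩ := zones O hO.root hO.pair hO.far k hq₀
  obtain ⟨U2, hU2, c2, hc2, hP⟩ := H668.pairLog k hq₀ hr hρR
  obtain ⟨U3, hU3, c3, hc3, hL⟩ := etaLegs_of hO.neck hO.core k q₀ hq₀
  obtain ⟨U4, hU4, c4, hc4, hD⟩ := H732.V1.delO_of hO.neck hO.core hO.far k q₀ hq₀
  obtain ⟨U5, hU5, δ, hδ, hmem⟩ := exists_bd_mem k hq₀
  obtain ⟨U6, hU6, c6, hc6, hB⟩ := H357.brd_one k hq₀
  refine ⟨U1 ∩ U2 ∩ (U3 ∩ U4) ∩ (U5 ∩ U6), inter_mem (inter_mem (inter_mem (hU1o.mem_nhds hU1) hU2)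
    (inter_mem hU3 hU4)) (inter_mem hU5 hU6), min (min c2 c3) (min c4 (min c6 1)),
    lt_min (lt_min hc2 hc3) (lt_min hc4 (lt_min hc6 one_pos)), fun c hc hcc => ?_⟩
  have hcc2 : c ≤ c2 := hcc.trans ((min_le_left _ _).trans (min_le_left _ _))
  have hcc3 : c ≤ c3 := hcc.trans ((min_le_left _ _).trans (min_le_right _ _))
  have hcc4 : c ≤ c4 := hcc.trans ((min_le_right _ _).trans (min_le_left _ _))
  have hcc6 : c ≤ c6 :=
    hcc.trans ((min_le_right _ _).trans ((min_le_right _ _).trans (min_le_left _ _)))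
  obtain ⟨M2, C, hM2, hC, hP⟩ := hP c hc hcc2
  obtain ⟨R3, hR3, hL⟩ := hL c hc hcc3
  obtain ⟨M4, B4, hM4, hB4, hD⟩ := hD c hc hcc4
  obtain ⟨M6, hM6, hB⟩ := hB c hc hcc6
  refine ⟨max (2 * ρR + 1) R3, lt_max_of_lt_right hR3, fun R₀ hR₀ => ?_⟩
  have hR₀2 : 2 * ρR < R₀ := by
    have := (le_max_left (2 * ρR + 1) R3).trans hR₀
    linarith
  obtain ⟨M3, B3, hM3, hB3, hL⟩ := hL R₀ ((le_max_right _ _).trans hR₀)
  obtain ⟨M5, hM5⟩ := exists_len hc hr hδ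
  obtain ⟨M, lM2, lM3, lM4, lM5, lM6, lM1⟩ : ∃ M : ℝ, M2 ≤ M ∧ M3 ≤ M ∧ M4 ≤ M ∧ M5 ≤ M ∧
      M6 ≤ M ∧ 1 ≤ M := ⟨max (max M2 M3) (max (max M4 M5) (max M6 1)),
    (le_max_left _ _).trans (le_max_left _ _), (le_max_right _ _).trans (le_max_left _ _),
    (le_max_left _ _).trans ((le_max_left _ _).trans (le_max_right _ _)),
    (le_max_right _ _).trans ((le_max_left _ _).trans (le_max_right _ _)),
    (le_max_left _ _).trans ((le_max_right _ _).trans (le_max_right _ _)),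
    (le_max_right _ _).trans ((le_max_right _ _).trans (le_max_right _ _))⟩
  have hK7 := H578.Kn_pos 7
  have hCW := H668.CW_nonneg (K := 2) one_le_two
  refine ⟨M, (1 + H668.CW 2) * (Kn 7 * C * B4 + 2 * B3), by linarith, by positivity, ?_⟩
  intro R m S p g v hp j d ξ hξ hξk
  have hy : 1 ≤ p.2.2.1 () := lM1.trans hp.y
  have hy0 : 0 < p.2.2.1 () := by linarith
  have hMM : c * Real.exp (-M / 2) < min r δ := by
    refine lt_of_le_of_lt ?_ hM5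
    gcongr
  obtain ⟨hBr, hσ⟩ := hB M lM6 R₀ R m S p g v (H356.inReg_mono
    (K' := U6 ∩ H828.XD k) (fun q hq => ⟨hq.1.2.2, hq.2⟩) le_rfl hp)
  have hP' := hP R₀ hR₀2 R m S p g v (H356.inReg_mono (K' := U2 ∩ H828.XD k)
    (fun q hq => ⟨hq.1.1.1.2, hq.2⟩) lM2 hp) hBr.mem
  have hL' := hL R m S p g v (H356.inReg_mono (K' := U3 ∩ H828.XD k)
    (fun q hq => ⟨hq.1.1.2.1, hq.2⟩) lM3 hp)
  have hA : Adm k (U1 ∩ U2 ∩ (U3 ∩ U4) ∩ (U5 ∩ U6)) c M (qb k p) (zh c p) :=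
    adm_of hc (fun q hq => hmem q hq.2.1) (hMM.trans_le (min_le_right _ _)) le_rfl
      (fun q hq => hq) hp
  have hA4 : Adm k U4 c M4 (qb k p) (zh c p) :=
    { hA with qU := hA.qU.1.2.2, len := lM4.trans hA.len }
  have hyl : yl c (zh c p) = p.2.2.1 () := H828.yl_zh hc p
  have hyl0 : 0 < yl c (zh c p) := by rw [hyl]; exact hy0
  have hroots : (toE k c p).1 = bd k (qb k p) (zh c p) := toE_roots k c p
  have hzr : ‖zh c p‖ < r := by
    rw [H828.norm_zh hc]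
    refine lt_of_le_of_lt ?_ (hMM.trans_le (min_le_left _ _))
    have := hp.y
    gcongr
  have hzz := fun t => hz (qb k p) hA.qU.1.1.1 hA.qX (zh c p) hzr hA.mem (Co1 R m) S t (toE k c)
    _ p hBr hroots
  have hP'' := hP' fun l => hbd _ hA.qU.1.1.1 _ hzr l
  have hdiff : DifferentiableAt ℝ (toE k c : Co1 R m → E) p :=
    hBr.smφ.differentiableAt (by simp)
  have hcst := H401.Ch1.cst_nonneg (p := p) hy0.le d
  have h1 := near_bound_w hBr hroots (hzz j.2) hξ (w := evec p d)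
    (wt := wt1 k c (qb k p) (zh c p)) (A := B4 * ‖ξ‖)
    (W := Kn 7 * C * B4 * (‖ξ‖ * H879.cst p d)) (B := B3 * ‖ξ‖ * H879.cst p d) (K := 2)
    (fun x => wt1_nonneg hyl0 x) (by positivity) (by positivity) (by positivity) one_le_two
    (fun P Q ρ a b e => wt1_near hyl0 b a e)
    (fun P Q ρ h1 h2 h3 h4 => (hD _ _ hA4 P Q ρ h1 h2 h3 h4 ξ hξ).2.1 hξk) ?_ ?_ j.1
  · rw [hσ] at h1
    refine h1.trans (le_of_eq ?_)
    ring
  · intro i l h1 h2 h3 h4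
    have e1 : PX S j.2 (toE k c) (H357.sg1 R S c p g v) p =
        PP S j.2 (toE k c p) (R.sht (toSp c p) g v) := by
      unfold PX
      rw [hσ]
    have h3' := h3
    have h4' := h4
    rw [e1] at h3' h4'
    obtain ⟨s1, s2, hPD⟩ := hP'' j.2 i l h1 h2 h3' h4'
    obtain ⟨-, -, ζ, ρ, a0, a1, a2, a3⟩ := hPD d
    refine ⟨ζ, ρ, a0, ?_, (logN_iff_near hdiff s1 _ _ _).2 a1, (logN_iff_near hdiff s2 _ _ _).2 a2⟩
    have e2 : (PX S j.2 (toE k c) (H357.sg1 R S c p g v) p i).1 = (toE k c p).2 (i, j.2) := by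
      show Xp S (toE k c p) (i, j.2) = _
      unfold Xp
      rw [s1, if_neg Bool.false_ne_true]
    rw [e2]
    have h5 : 0 ≤ B4 * ‖ξ‖ := by positivity
    have h6 := mul_le_mul_of_nonneg_left (mul_le_mul_of_nonneg_left a3 h5) hK7.le
    refine le_trans (le_of_eq ?_) (h6.trans (le_of_eq ?_))
    · ring
    · ring
  · intro i
    rw [hσ]
    exact ((hL' (i, j.2) d).1 ξ hξ).2 hξk

/-- **the clause `t1` in helper730's form** -/
theorem clT1 (O : One) (h : OneAsy O) :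
    ∀ k, ∀ q₀ ∈ H828.XD k, NearQ k q₀ (ClT1 O k) := by
  intro k q₀ hq₀
  obtain ⟨U, hU, c₀, hc₀, h⟩ := t1_of h k q₀ hq₀
  refine ⟨U, hU, c₀, hc₀, fun c hc hcc => ?_⟩
  obtain ⟨R₁, hR₁, h⟩ := h c hc hcc
  refine ⟨R₁, hR₁, fun R₀ hR₀ => ?_⟩
  obtain ⟨M₀, B, hM₀, hB, h⟩ := h R₀ hR₀
  exact ⟨M₀, B, 1, hM₀, hB, one_pos, fun R m S p g v hp j ξ d hξ hξk =>
    h R m S p g v hp j d ξ hξ hξk⟩

end Vale.Agent.P273.H865

end
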